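import Vale.Agent.P290Z.Spec2

/-! Exponential series on polystrips. -/

open Set Filter Metric
open scoped Topology

namespace Vale.Agent.P290Z.Omg

/-- the frequencies -/
abbrev Z3 : Type := Fin 3 → ℤ

/-- the size of a frequency -/
noncomputable def sz (m : Z3) : ℝ := 2 * Real.pi * ∑ i, |(m i : ℝ)|

/-- the symbol of the derivative -/
noncomputable def DL (m : Z3) : C3 →L[ℂ] ℂ :=
  (2 * Real.pi * Complex.I : ℂ) • ∑ i, (m i : ℂ) • ContinuousLinearMap.proj (R := ℂ) i

theorem DL_apply (m : Z3) (u : C3) :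
    DL m u = 2 * Real.pi * Complex.I * ∑ i, (m i : ℂ) * u i := by
  simp [DL]

theorem ex_eq (m : Z3) (x : C3) : ex m x = Complex.exp (DL m x) := by rw [DL_apply, ex]

theorem wgt_eq (h : ℝ) (m : Z3) : wgt h m = Real.exp (h * sz m) := by
  unfold wgt sz
  congr 1
  ring

theorem sz_nonneg (m : Z3) : 0 ≤ sz m := by
  unfold sz
  positivity

theorem wgt_pos (h : ℝ) (m : Z3) : 0 < wgt h m := Real.exp_pos _

theorem wgt_zero (h : ℝ) : wgt h 0 = 1 := by simp [wgt]

theorem wgt_add (h k : ℝ) (m : Z3) : wgt (h + k) m = wgt h m * wgt k m := by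
  rw [wgt_eq, wgt_eq, wgt_eq, add_mul, Real.exp_add]

theorem wgt_mono {h k : ℝ} (hk : h ≤ k) (m : Z3) : wgt h m ≤ wgt k m := by
  rw [wgt_eq, wgt_eq]
  exact Real.exp_le_exp.2 (mul_le_mul_of_nonneg_right hk (sz_nonneg m))

theorem sz_add (m n : Z3) : sz (m + n) ≤ sz m + sz n := by
  unfold sz
  rw [← mul_add, ← Finset.sum_add_distrib]
  refine mul_le_mul_of_nonneg_left (Finset.sum_le_sum fun i _ => ?_) (by positivity)
  rw [Pi.add_apply, Int.cast_add]
  exact abs_add_le _ _

theorem wgt_add_le {h : ℝ} (hh : 0 ≤ h) (m n : Z3) : wgt h (m + n) ≤ wgt h m * wgt h n := by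
  rw [wgt_eq, wgt_eq, wgt_eq, ← Real.exp_add, ← mul_add]
  exact Real.exp_le_exp.2 (mul_le_mul_of_nonneg_left (sz_add m n) hh)

theorem ex_add (m n : Z3) (x : C3) : ex (m + n) x = ex m x * ex n x := by
  unfold ex
  rw [← Complex.exp_add, ← mul_add, ← Finset.sum_add_distrib]
  congr 2
  refine Finset.sum_congr rfl fun i _ => ?_
  rw [Pi.add_apply, Int.cast_add, add_mul]

theorem ex_zero (x : C3) : ex 0 x = 1 := by simp [ex]

theorem ex_at_zero (m : Z3) : ex m 0 = 1 := by simp [ex]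

theorem norm_DL_le (m : Z3) (u : C3) : ‖DL m u‖ ≤ sz m * ‖u‖ := by
  rw [DL_apply, norm_mul, sz, mul_assoc (2 * Real.pi), Finset.sum_mul]
  have h1 : ‖(2 * Real.pi * Complex.I : ℂ)‖ = 2 * Real.pi := by
    simp [abs_of_pos Real.pi_pos]
  rw [h1]
  refine mul_le_mul_of_nonneg_left ((norm_sum_le _ _).trans (Finset.sum_le_sum fun i _ => ?_))
    (by positivity)
  rw [norm_mul, Complex.norm_intCast]
  exact mul_le_mul_of_nonneg_left (norm_le_pi_norm u i) (abs_nonneg _)

theorem norm_ex_le {h : ℝ} {x : C3} (hx : x ∈ Str h) (m : Z3) : ‖ex m x‖ ≤ wgt h m := by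
  unfold ex wgt
  rw [Complex.norm_exp]
  refine Real.exp_le_exp.2 ?_
  have h1 : (2 * Real.pi * Complex.I * ∑ i, (m i : ℂ) * x i).re =
      2 * Real.pi * ∑ i, -((m i : ℝ) * (x i).im) := by
    simp [Complex.mul_re, Complex.mul_im]
  rw [h1, mul_assoc (2 * Real.pi), Finset.mul_sum _ _ h]
  refine mul_le_mul_of_nonneg_left (Finset.sum_le_sum fun i _ => ?_) (by positivity)
  refine (neg_le_abs _).trans ?_
  rw [abs_mul, mul_comm]
  exact mul_le_mul_of_nonneg_right (hx i).le (abs_nonneg _)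

theorem isOpen_str (h : ℝ) : IsOpen (Str h) := by
  have : Str h = ⋂ i, {x : C3 | |(x i).im| < h} := by
    ext x
    simp [Str]
  rw [this]
  exact isOpen_iInter_of_finite fun i => isOpen_lt (by fun_prop) continuous_const

theorem convex_str (h : ℝ) : Convex ℝ (Str h) := by
  intro x hx y hy a b ha hb hab i
  have h1 : ((a • x + b • y) i).im = a * (x i).im + b * (y i).im := by simp
  rw [h1]
  exact convex_ball (0 : ℝ) h |> fun hc => by
    have := hc (x := (x i).im) (by simpa using hx i) (y := (y i).im) (by simpa using hy i)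
      ha hb hab
    simpa using this

theorem str_mono {h k : ℝ} (hk : h ≤ k) : Str h ⊆ Str k := fun _ hx i => (hx i).trans_le hk

theorem real_mem {h : ℝ} (hh : 0 < h) (t : Fin 3 → ℝ) : (fun i => (t i : ℂ)) ∈ Str h := by
  intro i
  simpa using hh

theorem exists_lt {h : ℝ} {x : C3} (hx : x ∈ Str h) : ∃ k < h, x ∈ Str k := by
  obtain ⟨i, hi⟩ := Finite.exists_max fun i => |(x i).im|
  exact ⟨(|(x i).im| + h) / 2, by linarith [hx i], fun j => by linarith [hi j, hx i]⟩

/-- the sum of an exponential series -/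
noncomputable def fs (c : Z3 → ℂ) (x : C3) : ℂ := ∑' m, c m * ex m x

/-- summability against the weight -/
def Sm (h : ℝ) (c : Z3 → ℂ) : Prop := Summable fun m => ‖c m‖ * wgt h m

theorem Sm.hasSum {h : ℝ} {c : Z3 → ℂ} (hc : Sm h c) {x : C3} (hx : x ∈ Str h) :
    HasSum (fun m => c m * ex m x) (fs c x) := by
  refine (Summable.of_norm_bounded hc fun m => ?_).hasSum
  rw [norm_mul]
  exact mul_le_mul_of_nonneg_left (norm_ex_le hx m) (norm_nonneg _)

theorem Sm.deriv {h : ℝ} {c : Z3 → ℂ} (hc : Sm h c) {x : C3} (hx : x ∈ Str h) :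
    DifferentiableAt ℂ (fs c) x ∧
      ∀ u, HasSum (fun m => c m * DL m u * ex m x) (fderiv ℂ (fs c) x u) := by
  obtain ⟨k, hk, hxk⟩ := exists_lt hx
  have hd : ∀ m (y : C3), HasFDerivAt (fun y => c m * ex m y) ((c m * ex m y) • DL m) y := by
    intro m y
    simp only [ex_eq]
    have := ((DL m).hasFDerivAt (x := y)).cexp.const_mul (c m)
    rwa [smul_smul] at this
  have hb : ∀ m, ∀ y ∈ Str k, ‖(c m * ex m y) • DL m‖ ≤ (h - k)⁻¹ * (‖c m‖ * wgt h m) := by
    intro m y hy
    have h1 : ‖DL m‖ ≤ sz m := ContinuousLinearMap.opNorm_le_bound _ (sz_nonneg m) (norm_DL_le m)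
    have h2 : (h - k) * sz m ≤ wgt (h - k) m := by
      rw [wgt_eq]
      linarith [Real.add_one_le_exp ((h - k) * sz m)]
    have h3 : wgt h m = wgt k m * wgt (h - k) m := by
      rw [← wgt_add]
      congr 1
      ring
    rw [norm_smul, norm_mul, h3, le_inv_mul_iff₀ (by linarith)]
    calc (h - k) * (‖c m‖ * ‖ex m y‖ * ‖DL m‖) ≤ (h - k) * (‖c m‖ * wgt k m * sz m) := by
          have := norm_ex_le hy m
          have := (wgt_pos k m).le
          have : 0 ≤ h - k := by linarith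
          gcongr
      _ = ‖c m‖ * (wgt k m * ((h - k) * sz m)) := by ring
      _ ≤ _ := by
          have := (wgt_pos k m).le
          gcongr
  have hs := hc.mul_left (h - k)⁻¹
  have key := hasFDerivAt_tsum_of_isPreconnected hs (isOpen_str k) (convex_str k).isPreconnected
    (fun m y _ => hd m y) hb hxk (hc.hasSum hx).summable hxk
  refine ⟨key.differentiableAt, fun u => ?_⟩
  have h4 := (Summable.of_norm_bounded hs fun m => hb m x hxk).hasSum
  have h5 := (ContinuousLinearMap.apply ℂ ℂ u).hasSum h4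
  rw [show fderiv ℂ (fs c) x = _ from key.fderiv]
  refine h5.congr_fun fun m => ?_
  simp only [ContinuousLinearMap.apply_apply, smul_apply, smul_eq_mul]
  ring

theorem summable_wgt {k : ℝ} (hk : 0 < k) : Summable fun m : Z3 => wgt (-k) m := by
  let q : ℤ → ℝ := fun n => Real.exp (-(2 * Real.pi * k)) ^ n.natAbs
  have hq0 : ∀ n, 0 ≤ q n := fun n => by positivity
  have hr : Real.exp (-(2 * Real.pi * k)) < 1 :=
    Real.exp_lt_one_iff.2 (by linarith [mul_pos (mul_pos two_pos Real.pi_pos) hk])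
  have hq : Summable q := by
    refine Summable.of_nat_of_neg ?_ ?_ <;>
      simpa [q] using summable_geometric_of_lt_one (Real.exp_pos _).le hr
  have h2 := hq.mul_of_nonneg hq hq0 hq0
  have h3 := hq.mul_of_nonneg h2 hq0 fun p => mul_nonneg (hq0 _) (hq0 _)
  have hinj : Function.Injective fun m : Z3 => (m 0, m 1, m 2) := by
    intro m n h
    simp only [Prod.mk.injEq] at h
    funext i
    fin_cases i
    exacts [h.1, h.2.1, h.2.2]
  refine (h3.comp_injective hinj).congr fun m => ?_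
  simp only [Function.comp, q, wgt, Fin.sum_univ_three, ← Real.exp_nat_mul, ← Real.exp_add,
    Nat.cast_natAbs, Int.cast_abs]
  congr 1
  ring

theorem sm_of_le {h k M : ℝ} (hk : k < h) {c : Z3 → ℂ} (hc : ∀ m, ‖c m‖ * wgt h m ≤ M) :
    Sm k c ∧ ∑' m, ‖c m‖ * wgt k m ≤ M * ∑' m, wgt (-(h - k)) m := by
  have hs := (summable_wgt (sub_pos.2 hk)).mul_left M
  have hle : ∀ m, ‖c m‖ * wgt k m ≤ M * wgt (-(h - k)) m := fun m => by
    rw [show k = h + -(h - k) by ring, wgt_add, ← mul_assoc, show h - (h + -(h - k)) = h - k by ring]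
    exact mul_le_mul_of_nonneg_right (hc m) (wgt_pos _ _).le
  have h1 : Sm k c := Summable.of_nonneg_of_le
    (fun m => mul_nonneg (norm_nonneg _) (wgt_pos _ _).le) hle hs
  exact ⟨h1, tsum_mul_left (a := M) ▸ h1.tsum_le_tsum hle hs⟩

/-- uniqueness of the coefficients -/
theorem uniq (hF : StFou) {h : ℝ} (hh : 0 < h) {b : Z3 → ℂ}
    (hb : ∀ x ∈ Str h, HasSum (fun m => b m * ex m x) 0) : b = 0 := by
  obtain ⟨a, -, -, ha⟩ := hF 1 one_pos (fun _ => 0) (differentiableOn_const _) (fun _ _ _ => rfl) 0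
    (fun _ _ => by simp)
  have h0 := (hb 0 fun i => by simpa using hh).summable
  simp only [ex_at_zero, mul_one] at h0
  rw [ha b h0.norm fun t => hb _ (real_mem hh t)]
  exact (ha 0 (by simp) fun t => by simp).symm

end Vale.Agent.P290Z.Omg
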