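import Vale.Agent.P290Z.Omega.A

/-! The weighted Wiener algebra. -/

open Set Filter Metric
open scoped Topology

namespace Vale.Agent.P290Z.Omg

/-- the space of the absolutely summable families -/
abbrev E : Type := lp (fun _ : Z3 => ℂ) 1

theorem hasSum_norm (c : E) : HasSum (fun m => ‖c m‖) ‖c‖ := by
  simpa using lp.hasSum_norm (p := 1) (by simp) c

/-- an element of `E` -/
def mk (d : Z3 → ℂ) (hd : Summable fun m => ‖d m‖) : E := ⟨d, memℓp_gen (by simpa using hd)⟩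

theorem mk_apply (d : Z3 → ℂ) (hd : Summable fun m => ‖d m‖) (m : Z3) : mk d hd m = d m := rfl

/-- the coefficients of the function given by an element of `E` -/
noncomputable def co (ρ : ℝ) (c : E) (m : Z3) : ℂ := c m / wgt ρ m

theorem norm_co (ρ : ℝ) (c : E) (m : Z3) : ‖co ρ c m‖ * wgt ρ m = ‖c m‖ := by
  rw [co, norm_div, Complex.norm_real, Real.norm_of_nonneg (wgt_pos ρ m).le,
    div_mul_cancel₀ _ (wgt_pos ρ m).ne']

theorem sm_co (ρ : ℝ) (c : E) : Sm ρ (co ρ c) := by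
  simp only [Sm, norm_co]
  exact (hasSum_norm c).summable

variable {ρ : ℝ}

theorem norm_fs_co (c : E) {x : C3} (hx : x ∈ Str ρ) : ‖fs (co ρ c) x‖ ≤ ‖c‖ := by
  refine tsum_of_norm_bounded (hasSum_norm c) fun m => ?_
  rw [norm_mul, ← norm_co ρ c m]
  exact mul_le_mul_of_nonneg_left (norm_ex_le hx m) (norm_nonneg _)

/-- the evaluation at a point -/
noncomputable def evL {x : C3} (hx : x ∈ Str ρ) : E →L[ℂ] ℂ :=
  LinearMap.mkContinuous
    { toFun := fun c => fs (co ρ c) x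
      map_add' := fun c d => by
        refine ((sm_co ρ (c + d)).hasSum hx).unique
          ((((sm_co ρ c).hasSum hx).add ((sm_co ρ d).hasSum hx)).congr_fun fun m => ?_)
        simp only [co, lp.coeFn_add, Pi.add_apply]
        ring
      map_smul' := fun a c => by
        refine ((sm_co ρ (a • c)).hasSum hx).unique
          ((((sm_co ρ c).hasSum hx).mul_left a).congr_fun fun m => ?_)
        simp only [co, lp.coeFn_smul, Pi.smul_apply, smul_eq_mul]
        ring } 1 fun c => by simpa using norm_fs_co c hx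

theorem evL_apply {x : C3} (hx : x ∈ Str ρ) (c : E) : evL hx c = fs (co ρ c) x := rfl

theorem eq_of_ev (hF : StFou) (hρ : 0 < ρ) {c d : E}
    (h : ∀ x ∈ Str ρ, fs (co ρ c) x = fs (co ρ d) x) : c = d := by
  have h1 : co ρ (c - d) = 0 := uniq hF hρ fun x hx => by
    have h2 := (sm_co ρ (c - d)).hasSum hx
    rwa [← evL_apply hx, map_sub, evL_apply, evL_apply, h x hx, sub_self] at h2
  rw [← sub_eq_zero, ← norm_eq_zero]
  refine (hasSum_norm _).unique (hasSum_zero.congr_fun fun m => ?_)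
  rw [← norm_co ρ, h1]
  simp

/-- `f` has norm at most `M` in the Wiener algebra -/
def W (ρ : ℝ) (f : C3 → ℂ) (M : ℝ) : Prop :=
  ∃ c : E, ‖c‖ ≤ M ∧ ∀ x ∈ Str ρ, fs (co ρ c) x = f x

variable {f g : C3 → ℂ} {M N : ℝ}

theorem W.nonneg (h : W ρ f M) : 0 ≤ M := by
  obtain ⟨c, hc, -⟩ := h
  exact (norm_nonneg c).trans hc

theorem W.mono (h : W ρ f M) (hM : M ≤ N) : W ρ f N := by
  obtain ⟨c, hc, h⟩ := h
  exact ⟨c, hc.trans hM, h⟩

theorem W.congr (h : W ρ f M) (hg : ∀ x ∈ Str ρ, f x = g x) : W ρ g M := by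
  obtain ⟨c, hc, h⟩ := h
  exact ⟨c, hc, fun x hx => (h x hx).trans (hg x hx)⟩

theorem W.add (h : W ρ f M) (h' : W ρ g N) : W ρ (fun x => f x + g x) (M + N) := by
  obtain ⟨c, hc, h⟩ := h
  obtain ⟨d, hd, h'⟩ := h'
  exact ⟨c + d, (norm_add_le c d).trans (add_le_add hc hd), fun x hx => by
    rw [← evL_apply hx, map_add, evL_apply, evL_apply, h x hx, h' x hx]⟩

theorem W.const_mul (h : W ρ f M) (a : ℂ) : W ρ (fun x => a * f x) (‖a‖ * M) := by
  obtain ⟨c, hc, h⟩ := h
  exact ⟨a • c, (norm_smul_le a c).trans (mul_le_mul_of_nonneg_left hc (norm_nonneg a)),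
    fun x hx => by rw [← evL_apply hx, map_smul, evL_apply, h x hx, smul_eq_mul]⟩

theorem W.sub (h : W ρ f M) (h' : W ρ g N) : W ρ (fun x => f x - g x) (M + N) :=
  ((h.add (h'.const_mul (-1))).congr fun x _ => by ring).mono (by simp)

theorem W.series {ι : Type} {F : ι → C3 → ℂ} {B : ι → ℝ} (h : ∀ i, W ρ (F i) (B i))
    (hB : HasSum B M) (hg : ∀ x ∈ Str ρ, HasSum (fun i => F i x) (g x)) : W ρ g M := by
  choose c hc h using h
  have hs : Summable c := Summable.of_norm_bounded hB.summable hc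
  refine ⟨∑' i, c i, tsum_of_norm_bounded hB hc, fun x hx => ?_⟩
  exact ((evL hx).hasSum hs.hasSum).unique ((hg x hx).congr_fun fun i => h i x hx)

theorem W.of_coef {c : Z3 → ℂ} (hc : HasSum (fun m => ‖c m‖ * wgt ρ m) M)
    (hf : ∀ x ∈ Str ρ, HasSum (fun m => c m * ex m x) (f x)) : W ρ f M := by
  have h1 : ∀ m, ‖c m * wgt ρ m‖ = ‖c m‖ * wgt ρ m := fun m => by
    rw [norm_mul, Complex.norm_real, Real.norm_of_nonneg (wgt_pos ρ m).le]
  have h2 : HasSum (fun m => ‖c m * wgt ρ m‖) M := hc.congr_fun h1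
  obtain ⟨d, hd⟩ : ∃ d : E, ∀ m, d m = c m * wgt ρ m :=
    ⟨mk (fun m => c m * wgt ρ m) h2.summable, fun _ => rfl⟩
  refine ⟨d, ((hasSum_norm d).unique (h2.congr_fun fun m => by rw [hd])).le, fun x hx => ?_⟩
  refine ((sm_co ρ d).hasSum hx).unique ((hf x hx).congr_fun fun m => ?_)
  rw [co, hd, mul_div_cancel_right₀ _ (Complex.ofReal_ne_zero.2 (wgt_pos ρ m).ne')]

theorem W.one : W ρ (fun _ => 1) 1 := by
  refine W.of_coef (c := fun m => if m = 0 then 1 else 0) ?_ fun x _ => ?_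
  · have := hasSum_single (f := fun m : Z3 => ‖(if m = 0 then 1 else 0 : ℂ)‖ * wgt ρ m) 0
      (L := SummationFilter.unconditional _) fun m hm => by simp [hm]
    simpa [wgt_zero] using this
  · have := hasSum_single (f := fun m : Z3 => (if m = 0 then 1 else 0 : ℂ) * ex m x) 0
      (L := SummationFilter.unconditional _) fun m hm => by simp [hm]
    simpa [ex_zero] using this

theorem W.ex_mul (hρ : 0 ≤ ρ) (h : W ρ f M) (n : Z3) :
    W ρ (fun x => ex n x * f x) (wgt ρ n * M) := by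
  obtain ⟨c, hc, h⟩ := h
  have hle : ∀ m, ‖co ρ c m‖ * wgt ρ (n + m) ≤ wgt ρ n * ‖c m‖ := fun m => by
    rw [← norm_co ρ c m, mul_left_comm]
    exact mul_le_mul_of_nonneg_left (wgt_add_le hρ n m) (norm_nonneg _)
  have hs := (hasSum_norm c).mul_left (wgt ρ n)
  have h1 : Summable fun m => ‖co ρ c m‖ * wgt ρ (n + m) := Summable.of_nonneg_of_le
    (fun m => mul_nonneg (norm_nonneg _) (wgt_pos _ _).le) hle hs.summable
  refine (W.of_coef (c := fun m => co ρ c (-n + m)) (M := ∑' m, ‖co ρ c m‖ * wgt ρ (n + m))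
    ?_ fun x hx => ?_).mono ((hasSum_le hle h1.hasSum hs).trans
      (mul_le_mul_of_nonneg_left hc (wgt_pos _ _).le))
  · refine (Equiv.addLeft n).hasSum_iff.1 (h1.hasSum.congr_fun fun m => ?_)
    simp
  · refine (Equiv.addLeft n).hasSum_iff.1 ?_
    rw [← h x hx]
    refine (((sm_co ρ c).hasSum hx).mul_left (ex n x)).congr_fun fun m => ?_
    simp only [Function.comp, Equiv.coe_addLeft, neg_add_cancel_left, ex_add]
    ring

theorem W.mul (hρ : 0 ≤ ρ) (h : W ρ f M) (h' : W ρ g N) : W ρ (fun x => f x * g x) (M * N) := by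
  obtain ⟨c, hc, h⟩ := h
  refine (W.series (fun m => (h'.ex_mul hρ m).const_mul (co ρ c m)) (M := ‖c‖ * N) ?_
    fun x hx => ?_).mono (mul_le_mul_of_nonneg_right hc h'.nonneg)
  · refine ((hasSum_norm c).mul_right N).congr_fun fun m => ?_
    rw [← mul_assoc, norm_co]
  · rw [← h x hx]
    exact (((sm_co ρ c).hasSum hx).mul_right (g x)).congr_fun fun m => by ring

theorem W.pow (hρ : 0 ≤ ρ) (h : W ρ f M) (k : ℕ) : W ρ (fun x => f x ^ k) (M ^ k) := by
  induction k with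
  | zero => simpa using W.one
  | succ k ih => simpa only [pow_succ] using ih.mul hρ h

theorem W.pow_sub (hρ : 0 ≤ ρ) {r D : ℝ} (hr : 0 < r) (h : W ρ f r) (h' : W ρ g r)
    (hD : W ρ (fun x => f x - g x) D) (k : ℕ) :
    W ρ (fun x => f x ^ k - g x ^ k) (D / r * (2 * r) ^ k) := by
  have h0 := hD.nonneg
  induction k with
  | zero =>
    exact ((W.one.const_mul 0).congr fun x _ => by simp).mono (by simpa using by positivity)
  | succ k ih =>
    refine (((h.mul hρ ih).add (hD.mul hρ (h'.pow hρ k))).congr fun x _ => by ring).mono ?_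
    have h1 : r ^ k ≤ (2 * r) ^ k := pow_le_pow_left₀ hr.le (by linarith) k
    have h2 : D * r ^ k ≤ D * (2 * r) ^ k := mul_le_mul_of_nonneg_left h1 h0
    have h3 : r * (D / r * (2 * r) ^ k) = D * (2 * r) ^ k := by field_simp
    have h4 : D / r * (2 * r) ^ (k + 1) = 2 * (D * (2 * r) ^ k) := by
      rw [pow_succ]
      field_simp
    linarith

theorem hasSum_cexp (z : ℂ) : HasSum (fun n : ℕ => z ^ n / n.factorial) (Complex.exp z) := by
  rw [Complex.exp_eq_exp_ℂ]
  exact NormedSpace.expSeries_div_hasSum_exp z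

theorem hasSum_rexp (z : ℝ) : HasSum (fun n : ℕ => z ^ n / n.factorial) (Real.exp z) := by
  rw [Real.exp_eq_exp_ℝ]
  exact NormedSpace.expSeries_div_hasSum_exp z

theorem W.exp (hρ : 0 ≤ ρ) (h : W ρ f M) (τ : ℂ) :
    W ρ (fun x => Complex.exp (τ * f x)) (Real.exp (‖τ‖ * M)) := by
  refine W.series (fun k : ℕ => (h.pow hρ k).const_mul (τ ^ k / k.factorial))
    ((hasSum_rexp _).congr_fun fun k => ?_) fun x _ => (hasSum_cexp _).congr_fun fun k => ?_
  · rw [norm_div, norm_pow, Complex.norm_natCast, mul_pow]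
    ring
  · rw [mul_pow]
    ring

theorem W.exp_sub (hρ : 0 ≤ ρ) {r D : ℝ} (hr : 0 < r) (h : W ρ f r) (h' : W ρ g r)
    (hD : W ρ (fun x => f x - g x) D) (τ : ℂ) :
    W ρ (fun x => Complex.exp (τ * f x) - Complex.exp (τ * g x))
      (D / r * Real.exp (‖τ‖ * (2 * r))) := by
  refine W.series (fun k : ℕ => (h.pow_sub hρ hr h' hD k).const_mul (τ ^ k / k.factorial))
    (((hasSum_rexp _).mul_left (D / r)).congr_fun fun k => ?_)
    fun x _ => ((hasSum_cexp _).sub (hasSum_cexp _)).congr_fun fun k => ?_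
  · rw [norm_div, norm_pow, Complex.norm_natCast, mul_pow ‖τ‖]
    ring
  · rw [mul_pow, mul_pow]
    ring

theorem W.norm_le (h : W ρ f M) {x : C3} (hx : x ∈ Str ρ) : ‖f x‖ ≤ M := by
  obtain ⟨c, hc, h⟩ := h
  rw [← h x hx]
  exact (norm_fs_co c hx).trans hc

theorem shift_mem {k r : ℝ} {x : C3} (hx : x ∈ Str ρ) {t : ℂ} (ht : ‖t‖ ≤ r) (hk : ρ + r ≤ k) :
    x + t • ee 2 ∈ Str k := by
  intro i
  have h1 : ‖(t • ee 2) i‖ ≤ r := by
    by_cases hi : i = 2
    · simpa [hi, ee] using ht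
    · simpa [hi, ee] using (norm_nonneg t).trans ht
  rw [Pi.add_apply, Complex.add_im]
  linarith [abs_add_le (x i).im ((t • ee 2) i).im, hx i, Complex.abs_im_le_norm ((t • ee 2) i)]

theorem norm_ee (i : Fin 3) : ‖ee i‖ = 1 := by simp [ee, Pi.norm_single]

theorem ex_shift (m : Z3) (x : C3) (t : ℂ) :
    ex m (x + t • ee 2) = ex m x * Complex.exp (DL m (ee 2) * t) := by
  rw [ex_eq, ex_eq, map_add, map_smul, Complex.exp_add, smul_eq_mul, mul_comm t]

theorem exp_le_wgt {r : ℝ} (hr : 0 ≤ r) (m : Z3) : Real.exp (‖DL m (ee 2)‖ * r) ≤ wgt r m := by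
  rw [wgt_eq, mul_comm r]
  refine Real.exp_le_exp.2 (mul_le_mul_of_nonneg_right ?_ hr)
  simpa [norm_ee] using norm_DL_le m (ee 2)

/-- composition with the shift in the last variable -/
theorem W.comp (hρ : 0 ≤ ρ) {r k : ℝ} (hk : ρ + r ≤ k) (h : W ρ f r) {c : Z3 → ℂ} (hc : Sm k c) :
    W ρ (fun x => fs c (x + f x • ee 2)) (∑' m, ‖c m‖ * wgt k m) := by
  refine W.series (fun m => (((h.exp hρ (DL m (ee 2))).ex_mul hρ m).const_mul (c m)).mono ?_)
    (Summable.hasSum hc) fun x hx => ?_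
  · refine mul_le_mul_of_nonneg_left (le_trans ?_ (wgt_mono hk m)) (norm_nonneg _)
    rw [wgt_add]
    exact mul_le_mul_of_nonneg_left (exp_le_wgt h.nonneg m) (wgt_pos _ _).le
  · simpa only [ex_shift] using Sm.hasSum hc (shift_mem hx (h.norm_le hx) hk)

theorem W.comp_sub (hρ : 0 ≤ ρ) {r k D : ℝ} (hr : 0 < r) (hk : ρ + 2 * r ≤ k) (h : W ρ f r)
    (h' : W ρ g r) (hD : W ρ (fun x => f x - g x) D) {c : Z3 → ℂ} (hc : Sm k c) :
    W ρ (fun x => fs c (x + f x • ee 2) - fs c (x + g x • ee 2))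
      (D / r * ∑' m, ‖c m‖ * wgt k m) := by
  have h0 : 0 ≤ D / r := div_nonneg hD.nonneg hr.le
  refine W.series (fun m =>
    (((h.exp_sub hρ hr h' hD (DL m (ee 2))).ex_mul hρ m).const_mul (c m)).mono ?_)
    ((Summable.hasSum hc).mul_left (D / r)) fun x hx => ?_
  · rw [mul_left_comm (wgt ρ m), mul_left_comm]
    refine mul_le_mul_of_nonneg_left
      (mul_le_mul_of_nonneg_left (le_trans ?_ (wgt_mono hk m)) (norm_nonneg _)) h0
    rw [wgt_add]
    exact mul_le_mul_of_nonneg_left (exp_le_wgt (by linarith) m) (wgt_pos _ _).le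
  · refine ((Sm.hasSum hc (shift_mem hx (h.norm_le hx) (by linarith))).sub
      (Sm.hasSum hc (shift_mem hx (h'.norm_le hx) (by linarith)))).congr_fun fun m => ?_
    rw [ex_shift, ex_shift]
    ring

end Vale.Agent.P290Z.Omg
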