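import Vale.Agent.P290Z.Omega.B

/-! The fixed point. -/

open Set Filter Metric
open scoped Topology ComplexConjugate

namespace Vale.Agent.P290Z.Omg

/-- the value of the primitive of the pulled back form -/
noncomputable def Lam (p g : Z3 → ℂ) (f : C3 → ℂ) (x : C3) : ℂ :=
  fs p (x + f x • ee 2) - f x * fs g (x + f x • ee 2)

/-- a family with small weighted sum -/
def Sb (k : ℝ) (c : Z3 → ℂ) (B : ℝ) : Prop := Sm k c ∧ ∑' m, ‖c m‖ * wgt k m ≤ B

variable {ρ k r B : ℝ}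

theorem W.self (c : E) : W ρ (fs (co ρ c)) ‖c‖ := ⟨c, le_rfl, fun _ _ => rfl⟩

theorem exists_N (hF : StFou) (hρ : 0 < ρ) (hr : 0 < r) (hr1 : r ≤ 1) (hk : ρ + 2 * r ≤ k)
    {p g : Z3 → ℂ} (hp : Sb k p B) (hg : Sb k g B) :
    ∃ N : E → E, (∀ c, ‖c‖ ≤ r → ‖N c‖ ≤ 2 * B ∧
      ∀ x ∈ Str ρ, fs (co ρ (N c)) x = Lam p g (fs (co ρ c)) x) ∧
      ∀ c c', ‖c‖ ≤ r → ‖c'‖ ≤ r → ‖N c - N c'‖ ≤ 3 * B / r * ‖c - c'‖ := by
  have hk' : ρ + r ≤ k := by linarith
  have hB : 0 ≤ B := le_trans (tsum_nonneg fun m =>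
    mul_nonneg (norm_nonneg _) (wgt_pos _ _).le) hp.2
  have h1 : ∀ c : E, ‖c‖ ≤ r → W ρ (Lam p g (fs (co ρ c))) (2 * B) := fun c hc => by
    have hc' := (W.self (ρ := ρ) c).mono hc
    refine (((hc'.comp hρ.le hk' hp.1).mono hp.2).sub
      (hc'.mul hρ.le ((hc'.comp hρ.le hk' hg.1).mono hg.2))).mono ?_
    nlinarith
  choose! N hN using h1
  refine ⟨N, hN, fun c c' hc hc' => ?_⟩
  have a1 := (W.self (ρ := ρ) c).mono hc
  have a2 := (W.self (ρ := ρ) c').mono hc'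
  have a3 : W ρ (fun x => fs (co ρ c) x - fs (co ρ c') x) ‖c - c'‖ :=
    (W.self (c - c')).congr fun x hx => by rw [← evL_apply hx, map_sub, evL_apply, evL_apply]
  have h0 : 0 ≤ ‖c - c'‖ / r := div_nonneg (norm_nonneg _) hr.le
  have b1 := (a1.comp_sub hρ.le hr hk a2 a3 hp.1).mono (mul_le_mul_of_nonneg_left hp.2 h0)
  have b2 := (a1.comp_sub hρ.le hr hk a2 a3 hg.1).mono (mul_le_mul_of_nonneg_left hg.2 h0)
  have b3 := (a2.comp hρ.le hk' hg.1).mono hg.2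
  obtain ⟨d, hd, hd'⟩ := b1.sub ((a1.mul hρ.le b2).add (a3.mul hρ.le b3))
  have e : N c - N c' = d := eq_of_ev hF hρ fun x hx => by
    rw [← evL_apply hx, map_sub, evL_apply, evL_apply, (hN c hc).2 x hx, (hN c' hc').2 x hx,
      hd' x hx, Lam, Lam]
    ring
  rw [e]
  refine hd.trans ?_
  have h2 : ‖c - c'‖ = r * (‖c - c'‖ / r) := by field_simp
  have h3 : 3 * B / r * ‖c - c'‖ = 3 * (‖c - c'‖ / r * B) := by ring
  have h4 : r * (‖c - c'‖ / r * B) ≤ ‖c - c'‖ / r * B :=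
    mul_le_of_le_one_left (mul_nonneg h0 hB) hr1
  have h5 : ‖c - c'‖ * B = r * (‖c - c'‖ / r * B) := by field_simp
  linarith

theorem norm_le_of_le {c d : E} (h : ∀ m, ‖d m‖ ≤ ‖c m‖) : ‖d‖ ≤ ‖c‖ :=
  hasSum_le h (hasSum_norm d) (hasSum_norm c)

theorem exists_fix {T : E → E} (hr : 0 ≤ r) (h1 : ∀ c, ‖c‖ ≤ r → ‖T c‖ ≤ r)
    (h2 : ∀ c c', ‖c‖ ≤ r → ‖c'‖ ≤ r → ‖T c - T c'‖ ≤ 1 / 2 * ‖c - c'‖) :
    ∃ c, ‖c‖ ≤ r ∧ T c = c := by
  have hm : MapsTo T (closedBall 0 r) (closedBall 0 r) := fun c hc =>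
    mem_closedBall_zero_iff.2 (h1 c (mem_closedBall_zero_iff.1 hc))
  have hc : ContractingWith (1 / 2) (hm.restrict T _ _) := by
    refine ⟨by norm_num, LipschitzWith.of_dist_le_mul fun c c' => ?_⟩
    have := h2 c c' (mem_closedBall_zero_iff.1 c.2) (mem_closedBall_zero_iff.1 c'.2)
    rw [Subtype.dist_eq, Subtype.dist_eq, dist_eq_norm, dist_eq_norm]
    simpa using this
  obtain ⟨y, hy, hy', -⟩ := ContractingWith.exists_fixedPoint' isClosed_closedBall.isComplete hm hc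
    (mem_closedBall_self hr) (edist_ne_top _ _)
  exact ⟨y, mem_closedBall_zero_iff.1 hy, hy'⟩

theorem DL_cj (m : Z3) (v : C3) : DL m (cj v) = - conj (DL m v) := by
  simp [DL_apply, cj, map_ofNat]

theorem core (hF : StFou) (hρ : 0 < ρ) (hr : 0 < r) (hr1 : r ≤ 1) (hk : ρ + 2 * r ≤ k)
    {p g p' g' : Z3 → ℂ} (hp : Sb k p B) (hg : Sb k g B) (hp' : Sb k p' B) (hg' : Sb k g' B)
    (v : C3) {z : ℂ} (hz : z ≠ 0) (hB : 12 * B ≤ r * ‖z‖) :
    ∃ Ω : C3 → ℂ, ∀ x ∈ Str ρ, DifferentiableAt ℂ Ω x ∧ ‖Ω x‖ ≤ r ∧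
      z * fderiv ℂ Ω x v = fderiv ℂ (Lam p g Ω) x v - fderiv ℂ (Lam p' g' Ω) x (cj v) := by
  obtain ⟨N, hN, hL⟩ := exists_N hF hρ hr hr1 hk hp hg
  obtain ⟨N', hN', hL'⟩ := exists_N hF hρ hr hr1 hk hp' hg'
  let σ : Z3 → ℂ := fun m => DL m (cj v) / DL m v
  have hσ : ∀ m, ‖σ m‖ ≤ 1 := fun m => by
    simp only [σ, DL_cj, norm_div, norm_neg, Complex.norm_conj]
    exact div_self_le_one _
  have hσ' : ∀ m, σ m * DL m v = DL m (cj v) := fun m => by
    by_cases h : DL m v = 0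
    · simp [DL_cj, h]
    · exact div_mul_cancel₀ _ h
  have hle : ∀ (a : ℂ) m, ‖σ m * a‖ ≤ ‖a‖ := fun a m => by
    rw [norm_mul]
    exact mul_le_of_le_one_left (norm_nonneg _) (hσ m)
  have hS : ∀ c : E, ∃ d : E, ∀ m, d m = σ m * c m := fun c =>
    ⟨mk (fun m => σ m * c m) (Summable.of_nonneg_of_le (fun _ => norm_nonneg _)
      (fun m => hle _ m) (hasSum_norm c).summable), fun _ => rfl⟩
  choose S hS using hS
  have hz' : 0 < ‖z‖ := norm_pos_iff.2 hz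
  obtain ⟨c, hc, hfix⟩ := exists_fix (T := fun c => z⁻¹ • (N c - S (N' c))) hr.le
    (fun c hc => by
      have a1 : ‖S (N' c)‖ ≤ ‖N' c‖ := norm_le_of_le fun m => by rw [hS]; exact hle _ m
      have a2 := norm_sub_le (N c) (S (N' c))
      have a3 := norm_nonneg (N c)
      rw [norm_smul, norm_inv, inv_mul_le_iff₀ hz']
      linarith [(hN c hc).1, (hN' c hc).1])
    (fun c c' hc hc' => by
      have a1 : ‖S (N' c) - S (N' c')‖ ≤ ‖N' c - N' c'‖ := norm_le_of_le fun m => by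
        rw [lp.coeFn_sub, Pi.sub_apply, hS, hS, ← mul_sub, lp.coeFn_sub, Pi.sub_apply]
        exact hle _ m
      have a2 := norm_sub_le (N c - N c') (S (N' c) - S (N' c'))
      have a3 : 3 * B / r * ‖c - c'‖ ≤ ‖z‖ / 4 * ‖c - c'‖ := by
        refine mul_le_mul_of_nonneg_right ?_ (norm_nonneg _)
        rw [div_le_iff₀ hr]
        linarith
      rw [← smul_sub, norm_smul, norm_inv, inv_mul_le_iff₀ hz', sub_sub_sub_comm]
      linarith [hL c c' hc hc', hL' c c' hc hc'])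
  have hco : ∀ m, z * co ρ c m = co ρ (N c) m - σ m * co ρ (N' c) m := fun m => by
    have h1 : c m = z⁻¹ * (N c m - σ m * N' c m) := by
      conv_lhs => rw [← hfix]
      rw [lp.coeFn_smul, Pi.smul_apply, lp.coeFn_sub, Pi.sub_apply, hS, smul_eq_mul]
    simp only [co]
    rw [h1]
    field_simp
  refine ⟨fs (co ρ c), fun x hx => ⟨((sm_co ρ c).deriv hx).1, (norm_fs_co c hx).trans hc, ?_⟩⟩
  have e1 : fderiv ℂ (Lam p g (fs (co ρ c))) x = fderiv ℂ (fs (co ρ (N c))) x :=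
    (EventuallyEq.fderiv_eq (eventually_of_mem ((isOpen_str ρ).mem_nhds hx) (hN c hc).2)).symm
  have e2 : fderiv ℂ (Lam p' g' (fs (co ρ c))) x = fderiv ℂ (fs (co ρ (N' c))) x :=
    (EventuallyEq.fderiv_eq (eventually_of_mem ((isOpen_str ρ).mem_nhds hx) (hN' c hc).2)).symm
  rw [e1, e2]
  refine ((((sm_co ρ c).deriv hx).2 v).mul_left z).unique
    (((((sm_co ρ (N c)).deriv hx).2 v).sub
      (((sm_co ρ (N' c)).deriv hx).2 (cj v))).congr_fun fun m => ?_)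
  rw [← hσ', ← mul_assoc, ← mul_assoc, hco]
  ring

theorem hasSum_Lam {p g : Z3 → ℂ} (hp : Sm k p) (hg : Sm k g) {f : C3 → ℂ} {x : C3}
    (hf : DifferentiableAt ℂ f x) (hy : x + f x • ee 2 ∈ Str k) (u : C3) :
    HasSum (fun m => (p m * DL m (u + fderiv ℂ f x u • ee 2) - fderiv ℂ f x u * g m -
      f x * (g m * DL m (u + fderiv ℂ f x u • ee 2))) * ex m (x + f x • ee 2))
      (fderiv ℂ (Lam p g f) x u) := by
  have h1 : HasFDerivAt (fun x => x + f x • ee 2)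
      (ContinuousLinearMap.id ℂ C3 + (fderiv ℂ f x).smulRight (ee 2)) x :=
    (hasFDerivAt_id x).add (hf.hasFDerivAt.smul_const (ee 2))
  have h2 := ((hp.deriv hy).1.hasFDerivAt.comp x h1).sub
    (hf.hasFDerivAt.mul ((hg.deriv hy).1.hasFDerivAt.comp x h1))
  have h3 : fderiv ℂ (Lam p g f) x u =
      fderiv ℂ (fs p) (x + f x • ee 2) (u + fderiv ℂ f x u • ee 2) -
        fderiv ℂ f x u * fs g (x + f x • ee 2) -
        f x * fderiv ℂ (fs g) (x + f x • ee 2) (u + fderiv ℂ f x u • ee 2) := by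
    rw [show fderiv ℂ (Lam p g f) x = _ from h2.fderiv]
    simp
    ring
  rw [h3]
  refine (((((hp.deriv hy).2 _).sub ((hg.hasSum hy).mul_left _))).sub
    (((hg.deriv hy).2 _).mul_left _)).congr_fun fun m => ?_
  ring

/-- the primitive of one Fourier mode -/
theorem prim (d b : C3) (hd : ∀ i, d i = 0 ∨ 1 ≤ ‖d i‖)
    (hb : d 0 * b 0 + d 1 * b 1 + d 2 * b 2 = 0) (h0 : d 0 = 0 → d 1 = 0 → d 2 = 0 → b = 0) :
    ∃ l : C3, b 0 = d 1 * l 2 - d 2 * l 1 ∧ b 1 = d 2 * l 0 - d 0 * l 2 ∧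
      b 2 = d 0 * l 1 - d 1 * l 0 ∧ d 2 * l 2 = 0 ∧ ∀ i, ‖l i‖ ≤ ‖b‖ := by
  have key : ∀ i j, d i ≠ 0 → ‖b j / d i‖ ≤ ‖b‖ := fun i j hi => by
    rw [norm_div]
    exact (div_le_self (norm_nonneg _) ((hd i).resolve_left hi)).trans (norm_le_pi_norm b j)
  by_cases h2 : d 2 = 0
  · by_cases h1 : d 1 = 0
    · by_cases h3 : d 0 = 0
      · exact ⟨0, by simp [h0 h3 h1 h2]⟩
      · refine ⟨![0, b 2 / d 0, -(b 1 / d 0)], ?_, ?_, ?_, ?_, fun i => ?_⟩
        · rw [h1, h2] at hb ⊢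
          simpa [h3] using hb
        · simp [h2]
          field_simp
        · simp
          field_simp
        · simp [h2]
        · fin_cases i
          · simp
          · exact key 0 2 h3
          · exact (norm_neg _).trans_le (key 0 1 h3)
    · refine ⟨![-(b 2 / d 1), 0, b 0 / d 1], ?_, ?_, ?_, ?_, fun i => ?_⟩
      · simp
        field_simp
      · simp [h2]
        field_simp
        linear_combination hb - b 2 * h2
      · simp
        field_simp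
      · simp [h2]
      · fin_cases i
        · exact (norm_neg _).trans_le (key 1 2 h1)
        · simp
        · exact key 1 0 h1
  · refine ⟨![b 1 / d 2, -(b 0 / d 2), 0], ?_, ?_, ?_, ?_, fun i => ?_⟩
    · simp
      field_simp
    · simp
      field_simp
    · simp
      field_simp
      linear_combination hb
    · simp
    · fin_cases i
      · exact key 2 1 h2
      · exact (norm_neg _).trans_le (key 2 0 h2)
      · simp

end Vale.Agent.P290Z.Omg
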